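import Crest.Agent.X212.Tla99.Pat
import Crest.Agent.X212.Nd18.Fj

/-!
# Row 212, A-TL (helper99): uniform approximate solutions on the ends of the wall `a`
-/

set_option autoImplicit false
set_option linter.unusedSectionVars false
noncomputable section
open scoped Manifold ContDiff Topology InnerProductSpace
open MeasureTheory Set Function Filter

namespace Crest.Agent.X212.Tla99
open An M Nd18 Mod61 Nk89 Cht98 Rf65 Pte3
open An.Job (SolOn StrOn)

variable {Wi : Type} {X : Mf 4} {A κ lam : Type} [Fintype A] [Fintype κ] [Fintype lam]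
  [DecidableEq lam] {M : Mark X A κ} {W : World M} {N : ML M lam} {Λ : Lns W N}
  {A' h : Type} [Fintype A'] [DecidableEq A'] [Fintype h] {r n : ℕ}
  (J : Job Wi Λ A' h r n) (c : M.Cl) (a : A)

/-- **LEAF UA** -/
def UA : Prop := ∀ σ p, PG J c σ p → ∀ β γ, (J.xs a).N.Crit (J.xs a).D β →
  Dec35.P1In (J.xs a).D β (J.xs a).N → 0 < γ → Dec35.LocIn (J.xs a).D β (J.xs a).N γ →
  ∀ (α : Type) (𝒰 : Ultrafilter α) (q : α → Wi →₀ ℝ) (y : α → J.Obc c) q₀ y₀,
  St.Cv (𝒰 : Filter α) q q₀ → (∀ᶠ k in (𝒰 : Filter α), SolOn p σ (q k) (y k)) →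
  SolOn p σ q₀ y₀ → StrOn p 𝒰 y y₀ → ∀ b, a ∈ cylW c → p.En a b →
  ∃ S Q k' Kc T, ∀ᶠ k in (𝒰 : Filter α), ∀ ha : Act J.m c a (some b) (J.Θ (y k).s),
    ∃ τ ∈ Dec35.Bl (J.xs a).D (J.xs a).N S Q,
      Dec35.Asol (J.xs a).D β τ γ k' Kc ((J.K c a _ _ ha).pb (y k).x) {s | T < -pm b * s}

end Crest.Agent.X212.Tla99
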