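import Crest.Agent.X212.Pte3.Tl2
import Crest.Agent.X212.Dgr80.Chh

/-!
# Row 212, A-TL (helper99): uniform tails on half cylinders, with a prescribed phase
-/

set_option autoImplicit false
set_option linter.unusedSectionVars false
noncomputable section
open scoped Manifold ContDiff Topology InnerProductSpace
open MeasureTheory Set Function Filter Real

namespace Crest.Agent.X212.Tla99
open An Nd18 Cyf70 Rdc90 Bki64 Neck67 Eqv71 Pj41 Pte3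
open Tmp64 (AdmOn admOn_univ)
open Cay24 (wn)
open Dec35 (win_end wn_sub DecU Asol)
open Dgr80 (adm_crit)

variable {E3 : Type} [NormedAddCommGroup E3] [NormedSpace ℝ E3] [FiniteDimensional ℝ E3]
  [MeasurableSpace E3] [BorelSpace E3]
  {H3 : Type} [TopologicalSpace H3] {I3 : ModelWithCorners ℝ E3 H3} [I3.Boundaryless]
  {Y : Type} [TopologicalSpace Y] [ChartedSpace H3 Y] [IsManifold I3 ∞ Y] [T2Space Y]
  [MeasurableSpace Y] [BorelSpace Y] [SecondCountableTopology Y] [CompactSpace Y]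
  {κ : Type} [Fintype κ] {lam : Type} [Fintype lam] {D : YD I3 Y κ lam} {β β' : YC Y κ lam}
  {N : ND Y lam} {r : ℕ} {σ T d : ℝ} {α : Type} {l : Filter α}
  {c : α → Cfg (Y × ℝ) (Option κ) lam r} {γ : α → YC Y κ lam} {ζ : α → Circle}
  {c₀ : Cfg (Y × ℝ) (Option κ) lam r} {γ₀ : YC Y κ lam}

variable (D β β') in
/-- the phase of a chosen equivalence -/
def Ξ : Circle := Classical.epsilon fun ξ => ∃ g, Stb D β β' g ξ

theorem stb_Ξ (hD : D.OK) (h : D.Adm β) (h' : D.Adm β') (e : D.Eqv β β') :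
    ∃ g, Stb D β β' g (Ξ D β β') :=
  Classical.epsilon_spec (p := fun ξ => ∃ g, Stb D β β' g ξ)
    (let ⟨g, ξ, k⟩ := Dgr80.stb_of_eqv hD h h' e; ⟨ξ, g, k⟩)

theorem cl_stb (h' : D.Adm β') {g : Y → CL β.m.V β'.m.V} {ξ : Circle} (s : Stb D β β' g ξ) (k : ℕ) :
    ∃ A, ∀ (c : Cfg (Y × ℝ) (Option κ) lam r) u ζ O η, Cl D.Z c (cy β) u (fun _ => ζ) O k η →
      Cl D.Z c (cy β') (fun x => g x.1 ∘L u x) (fun _ => ξ * ζ) O k (A * |η|) :=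
  Pnt66.cl_post h'.adm.ok.Jsq s.iso (fun x _ a => s.par a x) (fun x => (s.Φ x.1).symm)
    (Nk89.cb_inv D.F.toPre fun x => s.iso.su x trivial) k

theorem lim_stb {ζ ξ : Circle} (h : LimY D σ c₀ β ζ) (h' : D.Adm β') {g : Y → CL β.m.V β'.m.V}
    (s : Stb D β β' g ξ) : LimY D σ c₀ β' (ξ * ζ) := by
  obtain ⟨u, h⟩ := h
  refine ⟨fun x => g x.1 ∘L u x, fun k η p => ?_⟩
  obtain ⟨A, hA⟩ := cl_stb (r := r) h' s k
  obtain ⟨η', p1, -, p2⟩ := small_of A p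
  obtain ⟨T', h⟩ := h k η' p1
  exact ⟨T', (hA _ _ _ _ _ h).mono hf_op Subset.rfl le_rfl p2⟩

theorem nr_stb {ξ : Circle} (h : NrY D σ l c β) (h' : D.Adm β') {g : Y → CL β.m.V β'.m.V}
    (s : Stb D β β' g ξ) : NrY D σ l c β' := fun η p => by
  obtain ⟨A, hA⟩ := cl_stb (r := r) h' s ⌈η⁻¹⌉₊
  obtain ⟨η', p1, p2, p3⟩ := small_of A p
  have p4 := inv_anti₀ p1 p2
  obtain ⟨T', h⟩ := h η' p1
  refine ⟨T', h.mono fun i hi s hs => ?_⟩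
  obtain ⟨u, ξ, hu⟩ := hi s hs
  exact ⟨_, _, (hA _ _ _ _ _ (Cl.mono hu (win_op _ _) (win_sub (by simpa using p4))
    (Nat.ceil_mono p4) le_rfl)).mono (win_op _ _) Subset.rfl le_rfl p3⟩

variable (D σ T l c γ ζ c₀ γ₀) in
/-- the data of an end -/
structure Ec : Prop where
  hc : ∀ᶠ i in l, AdmOn (c i) D.B D.G (hf Y σ T) ∧ D.Adm (γ i) ∧ LimY D σ (c i) (γ i) (ζ i)
  b0 : D.Adm γ₀
  hn : NrY D σ l c γ₀
  a0 : AdmOn c₀ D.B D.G (hf Y σ T)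
  l0 : ∃ ζ, LimY D σ c₀ γ₀ ζ
  cz : ∃ (u : ∀ i, Y × ℝ → CL (c i).m.V c₀.m.V) (ζ : α → Circle), ∀ k m L, T + (L + 1) ≤ m →
    CZ D.Z l (fun _ => win Y (σ * m) L) k c c₀ u fun i _ => ζ i

theorem Ec.mono (h : Ec D σ T l c γ ζ c₀ γ₀) {T' : ℝ} (e : T ≤ T') : Ec D σ T' l c γ ζ c₀ γ₀ :=
  ⟨h.hc.mono fun _ k => ⟨k.1.mono (hf_sub e), k.2⟩, h.b0, h.hn, h.a0.mono (hf_sub e), h.l0,
    let ⟨u, ξ, k⟩ := h.cz; ⟨u, ξ, fun j m L a => k j m L (by linarith)⟩⟩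

variable (D σ d l c β ζ) in
/-- the tail above the height `R` -/
def Ta (R : ℝ) : Prop := ∃ v : ∀ i, Y × ℝ → CL (c i).m.V β.m.V,
  (∀ᶠ i in l, ∀ k, ∃ C, ∀ s, R ≤ s →
    Cl D.Z (c i) (cy β) (v i) (fun _ => ζ i) (wn Y σ s) k (C * exp (-d * s))) ∧
  ∀ k, ∃ C, ∀ᶠ i in l, ∀ s, R ≤ s →
    Cl D.Z (c i) (cy β) (v i) (fun _ => ζ i) (wn Y σ s) k (C * exp (-d * s))

/-- maps which preserve closeness preserve tails -/
theorem Ta.map {R : ℝ} (h : Ta D β σ d l c ζ R) {ξ : α → Circle}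
    (f : ∀ i, (Y × ℝ → CL (c i).m.V β.m.V) → Y × ℝ → CL (c i).m.V β'.m.V)
    (hf : ∀ k, ∃ A, ∀ i u O η, Cl D.Z (c i) (cy β) u (fun _ => ζ i) O k η →
      Cl D.Z (c i) (cy β') (f i u) (fun _ => ξ i) O k (A * |η|)) : Ta D β' σ d l c ξ R := by
  obtain ⟨v, h1, h2⟩ := h
  choose A hA using hf
  have e : ∀ k C s, A k * |C * exp (-d * s)| ≤ A k * |C| * exp (-d * s) := fun k C s => by
    rw [abs_mul, abs_exp, mul_assoc]
  exact ⟨fun i => f i (v i), h1.mono fun i h k => let ⟨C, h⟩ := h k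
    ⟨_, fun s hs => (hA k _ _ _ _ (h s hs)).mono (win_op _ _) Subset.rfl le_rfl (e k C s)⟩,
    fun k => let ⟨C, h⟩ := h2 k; ⟨_, h.mono fun i h s hs =>
      (hA k _ _ _ _ (h s hs)).mono (win_op _ _) Subset.rfl le_rfl (e k C s)⟩⟩

theorem Ta.mono {R R' d' : ℝ} (h : Ta D β σ d l c ζ R) (e : R ≤ R') (e0 : 0 ≤ R') (e' : d' ≤ d) :
    Ta D β σ d' l c ζ R' := by
  obtain ⟨v, h1, h2⟩ := h
  have k : ∀ C s, R' ≤ s → C * exp (-d * s) ≤ |C| * exp (-d' * s) := fun C s hs =>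
    mul_le_mul (le_abs_self _) (exp_le_exp.2 (by nlinarith)) (exp_pos _).le (abs_nonneg _)
  exact ⟨v, h1.mono fun i h j => let ⟨C, h⟩ := h j
    ⟨_, fun s hs => (h s (e.trans hs)).mono (win_op _ _) Subset.rfl le_rfl (k C s hs)⟩,
    fun j => let ⟨C, h⟩ := h2 j; ⟨_, h.mono fun i h s hs =>
      (h s (e.trans hs)).mono (win_op _ _) Subset.rfl le_rfl (k C s hs)⟩⟩

/-- the phase is irrelevant for limits without spinor -/
theorem Ta.ph {R : ℝ} (h : Ta D β σ d l c ζ R) (hβ : Bs D β) (ξ : α → Circle) :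
    Ta D β σ d l c ξ R :=
  h.map (fun _ u => u) fun k => ⟨1 + ‖csB β.m.J‖, fun i u O η H => by
    have n := norm_nonneg (csB β.m.J)
    have m := le_abs_self η
    refine ⟨H.op, H.iso, fun a => (H.A a).mono (by nlinarith [abs_nonneg η]),
      ((Lb.clm H.op (csB β.m.J (ξ i / ζ i : Circle)) (H.P.mono m)).congr H.op fun x _ => ?_).mono
        (mul_le_mul_of_nonneg_right (((csB β.m.J).le_opNorm _).trans (by rw [Circle.norm_coe]; linarith))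
          (abs_nonneg _))⟩
    simp only [dP, show (cy β).Φ x = 0 from hβ.zr _, sub_zero]
    exact ((cs_mul hβ.adm.adm.ok.Jsq _ _ _).trans (by rw [← Circle.coe_mul, div_mul_cancel])).symm⟩

/-- the limits are in the class of the limit of the limit -/
theorem cls_ev (hD : D.OK) (hσ : σ = 1 ∨ σ = -1) (S : N.CD D) (o : S.C)
    (hc : ∀ᶠ i in l, AdmOn (c i) D.B D.G (hf Y σ T) ∧ N.Crit D (γ i) ∧ LimY D σ (c i) (γ i) (ζ i))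
    (hn : NrY D σ l c (S.β o)) : ∀ᶠ i in l, D.Eqv (γ i) (S.β o) := by
  have a := fun j => adm_crit (S.crit j)
  have : ∀ j, ∃ η > 0, j ≠ o → ∀ r (c : Cfg (Y × ℝ) (Option κ) lam r) s u u' ζ ζ',
      AdmOn c D.B D.G (win Y s 1) → Cn D c (S.β j) u ζ (win Y s 1) η →
      ¬Cn D c (S.β o) u' ζ' (win Y s 1) η := fun j => by
    by_cases e : j = o
    · exact ⟨1, one_pos, fun h => absurd e h⟩
    · exact (iso_eta hD (a j) (a o) (mt (S.sep j o) e) one_pos).imp fun _ h => ⟨h.1, fun _ => h.2⟩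
  choose η η0 h using this
  obtain ⟨η', p1, e1⟩ := exists_pos_le η0
  have p2 := lt_min p1 one_pos
  obtain ⟨T₁, hn⟩ := hn _ p2
  filter_upwards [hc, hn] with i ⟨a1, a2, a3⟩ a4
  obtain ⟨j, e⟩ := S.cov _ a2
  refine (by_contra fun k => ?_ : j = o) ▸ e
  obtain ⟨g, s⟩ := stb_Ξ hD (adm_crit a2) (a j) e
  obtain ⟨u, a5⟩ := lim_stb a3 (a j) s
  obtain ⟨T₂, a5⟩ := a5 ⌈(η j)⁻¹⌉₊ _ (η0 j)
  obtain ⟨t, t1, t2, t3⟩ : ∃ t, T₁ ≤ t ∧ T + 1 ≤ t ∧ T₂ + 1 ≤ t :=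
    ⟨max T₁ (max (T + 1) (T₂ + 1)), by simp, by simp, by simp⟩
  obtain ⟨u', ξ, a6⟩ := a4 t t1
  exact h j k _ _ _ _ _ _ _ (a1.mono (win_end hσ t2))
    (a5.mono (win_op _ _) (win_end hσ t3) le_rfl le_rfl) (a6.mono (win_op _ _)
      (win_sub (by simpa using (one_le_inv₀ p2).2 (min_le_right _ _))) p2
      ((min_le_left _ _).trans (e1 j)))

/-- **ends with nondegenerate critical points** -/
theorem endC (hD : D.OK) (hσ : σ = 1 ∨ σ = -1) (hd : 0 < d) (S : N.CD D) (o : S.C) {g : ℝ}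
    {𝒯 : Set (Pt (Y × ℝ) (Option κ) lam 0 0)} (h : DecU D (S.β o) g d 𝒯) {k' : ℕ → ℕ}
    {K : ℕ → ℝ → ℝ} (H : Ec D σ T l c γ ζ c₀ γ₀) (hc : ∀ᶠ i in l, N.Crit D (γ i) ∧
      ∃ τ ∈ 𝒯, Asol D (S.β o) τ g k' K (c i) {s | T < σ * s}) (e : D.Eqv γ₀ (S.β o))
    (hβ : D.Adm β) (e' : D.Eqv (S.β o) β) : (∀ᶠ i in l, D.Eqv (γ i) β) ∧ ∃ R,
      Ta D β σ d l c (fun i => Ξ D (S.β o) β * (Ξ D (γ i) (S.β o) * ζ i)) R := by
  have a := adm_crit (S.crit o)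
  obtain ⟨g₀, s₀⟩ := stb_Ξ hD H.b0 a e
  obtain ⟨g₁, s₁⟩ := stb_Ξ hD a hβ e'
  have hn := nr_stb H.hn a s₀
  have e1 := cls_ev hD hσ S o ((H.hc.and hc).mono fun i k => ⟨k.1.1, k.2.1, k.1.2.2⟩) hn
  obtain ⟨ζ₀, l0⟩ := H.l0
  obtain ⟨w, hw⟩ := lim_stb l0 a s₀
  obtain ⟨T₀, hw⟩ := hw 0 1 one_pos
  have H' := H.mono (le_max_left T T₀)
  obtain ⟨u, ξ, cz⟩ := H'.cz
  refine ⟨(e1.and H.hc).mono fun i k => IsoOn.trans hD.B hD.G isOpen_univ (ad0 k.2.2.1.adm)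
    (ad0 a.adm) (ad0 hβ.adm) k.1 e', max T T₀ + 2, Ta.map (β := S.β o)
    (ζ := fun i => Ξ D (γ i) (S.β o) * ζ i) (Dec35.tailZ (k' := k') (K := K) hD a hd h hσ ?_ hn
      (bd_ht hσ a H'.a0 (hw.iso.mono (hf_sub (le_max_right _ _))) cz)) (fun i u x => g₁ x.1 ∘L u x)
    fun k => (cl_stb hβ s₁ k).imp fun A hA i u O η => hA _ _ _ _ _⟩
  filter_upwards [H'.hc, hc, e1] with i ⟨a1, a2, a3⟩ ⟨_, τ, a4, a5⟩ a6
  obtain ⟨g', s⟩ := stb_Ξ hD a2 a a6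
  exact ⟨a1, ⟨τ, a4, a5.mono fun t ht => (le_max_left T T₀).trans_lt ht⟩, lim_stb a3 a s⟩

/-- **lens ends** -/
theorem endL (hσ : σ = 1 ∨ σ = -1) (hd : 0 < d) (hp : Rf65.PY D 0) (h0 : ∀ β, Bs D β → Tl47.DR D β d)
    (h1 : Tl47.NbH D) (h2 : Tl47.IdF D) (H : Ec D σ T l c γ ζ c₀ γ₀)
    (hc : ∀ᶠ i in l, Bs D (γ i) ∧ Eqs D (c i) (hf Y σ T)) (b0 : Bs D γ₀) (hβ : Bs D β)
    (e : D.Eqv γ₀ β) (ξ : α → Circle) : (∀ᶠ i in l, D.Eqv (γ i) β) ∧ ∃ R, Ta D β σ d l c ξ R := by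
  have hn := H.hn.eqv b0 hβ e
  have e1 : ∀ᶠ i in l, D.Eqv (γ i) β := by
    obtain ⟨ε, p, F⟩ := h2 0 hp β hβ
    filter_upwards [near_lim hσ h1 hp hβ hn ((H.hc.and hc).mono fun i k =>
      ⟨k.1.1, k.2.1, _, k.1.2.2⟩) p] with i ⟨f, a1, a2, a3⟩
    rwa [F f a1 a2 (.inr (.inr rfl)), Rd78.bh_zero] at a3
  obtain ⟨ζ₀, l0⟩ := H.l0
  obtain ⟨w, hw⟩ := l0.eqv b0 hβ e
  obtain ⟨T₀, hw⟩ := hw 0 1 one_pos
  have H' := H.mono (le_max_left T T₀)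
  obtain ⟨u, ξ', cz⟩ := H'.cz
  choose B _ b1 b2 using Cay24.lb_cy hβ.adm
  refine ⟨e1, max T T₀ + 2, Ta.ph (ζ := fun _ => 1) (tailY (W := fun _ => β.W) (Φ := fun _ => β.Φ)
    hσ hd hβ h0 ?_ (fun k => ⟨B k, .of_forall fun _ => b1 k⟩) hn
      (bd_ht hσ hβ.adm H'.a0 (hw.iso.mono (hf_sub (le_max_right _ _))) cz)) hβ ξ⟩
  filter_upwards [H'.hc, hc, e1] with i ⟨a1, _, a3⟩ ⟨a4, a5⟩ a6
  exact ⟨a1, fun x hx => a5 x (hf_sub (le_max_left _ _) hx), hβ, a3.eqv a4 hβ a6⟩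

end Crest.Agent.X212.Tla99
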