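import Crest.Agent.X212.Tla99.Defs
import Crest.Agent.X212.Tla99.Cy
import Crest.Agent.X212.Sw88.Dea
import Crest.Agent.X212.Sw88.Amd
import Crest.Agent.X212.Nbh31.Main
import Crest.Agent.X212.St29.Id

/-!
# Row 212, A-TL (helper99): uniform tails on parts with the wall `a` broken
-/

set_option autoImplicit false
set_option linter.unusedSectionVars false
noncomputable section
open scoped Manifold ContDiff Topology InnerProductSpace
open MeasureTheory Set Function Filter Real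

namespace Crest.Agent.X212.Tla99
open An M Nd18 Mod61 Nk89 Cht98 Rf65 Pte3 Fk18 Wrd81 Cyf70 Rdc90 Bki64
open An.Job (SolOn StrOn isClopen_un)
open Sw88.Elr (EqN)

section gen
variable {κ lam : Type} [Fintype κ] [Fintype lam] {Y Z : Mf 3} [CompactSpace Y.M]
  {D : YD Y.I Y.M κ lam} {β : YC Y.M κ lam} {r k : ℕ} {ζ : Circle} {S : Set ℝ} {η : ℝ}

theorem cls_bh {c : Cfg (Y.M × ℝ) (Option κ) lam r} {h : κ → Y.M → β.m.A} (e : h = 0)
    {u : Y.M × ℝ → CL c.m.V β.m.V} (H : D.Cls c β u ζ S k η) : D.Cls c (bh β h 0) u ζ S k η := by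
  subst e
  have : ∀ W Φ, Cay24.mv β W Φ = β → D.Cls c (Cay24.mv β W Φ) u ζ S k η := by
    obtain ⟨m, W, Φ, z⟩ := β
    intro W' Φ' e
    cases e
    exact H
  exact this _ _ (Rd78.bh_zero β)

end gen

variable {Wi : Type} {X : Mf 4} {A κ lam : Type} [Fintype A] [Fintype κ] [Fintype lam]
  [DecidableEq lam] {M : Mark X A κ} {W : World M} {N : ML M lam} {Λ : Lns W N}
  {A' h : Type} [Fintype A'] [DecidableEq A'] [Fintype h] {r n : ℕ}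
  {J : Job Wi Λ A' h r n} {c : M.Cl} {σ : Cel A'} {p : Prt A A' h} {α : Type} {l : Filter α}
  {q : α → Wi →₀ ℝ} {y : α → J.Obc c} {q₀ : Wi →₀ ℝ} {y₀ : J.Obc c}

theorem ac (H : PG J c σ p) {q : Wi →₀ ℝ} {y : J.Obc c} (S : SolOn p σ q y) (i : Ed c) :
    Act J.m c i.1 (some i.2) (J.Θ y.s) :=
  ⟨i.1.2.2, H.ok.memBr H.mem S.ov, H.ok.memO H.mem S.ov, i.1.2.1⟩

section one
variable (H : PG J c σ p) (hy : ∀ᶠ k in l, SolOn p σ (q k) (y k)) (h0 : SolOn p σ q₀ y₀)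
  (st : StrOn p l y y₀) {i : Ed c} (hi : i ∈ EdP c p.P)
include H hy h0 st hi

/-- far out on an end the equations of the neck hold, uniformly -/
theorem eqU (hq : St.Cv l q q₀) : ∃ T, 0 ≤ T ∧ ∀ᶠ k in l,
    ∀ ha : Act J.m c i.1 (some i.2) (J.Θ (y k).s),
      EqN (J.xs i.1).N n (J.K c i.1 _ _ ha) (y k).x ((J.xs i.1).q (q k)) {s | T < -pm i.2 * s} := by
  classical
  have hJ := H.ok
  obtain ⟨s, s1, s2⟩ : ∃ s : α → A' → ℝ, (∀ k, s k ∈ Job.cl σ ∧ Sys.inf (J.Θ (s k)).2 = c.1) ∧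
      ∀ᶠ k in l, s k = (y k).s :=
    ⟨fun k => if SolOn p σ (q k) (y k) then (y k).s else y₀.s, fun k => by
      beta_reduce
      split_ifs with S
      exacts [⟨S.cell, S.inf⟩, ⟨h0.cell, h0.inf⟩], hy.mono fun k S => if_pos S⟩
  have ov : ∀ k, J.Ov σ c (s k) := fun k => ⟨J.cl_dom (s1 k).1, (s1 k).2⟩
  obtain ⟨T, h1, -⟩ := hq
  obtain ⟨d, hd⟩ := Nfo63.loc (l := l) (s := s) hJ H.mem s1 (st.s.congr' (s2.mono fun _ => .symm))
    h0.cell (h0.inf.ge i.1.2.1) (e := some i.2) (fun k => ⟨i.1.2.2, hJ.memBr H.mem (ov k),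
      hJ.memO H.mem (ov k), i.1.2.1⟩) (Pat85.dj hJ) (fun k => hJ.ν_end H.mem (ov k) i.1.2) (q := q)
    (T := T ∪ q₀.support) fun w hw k => (h1 k w fun e => hw (by simp [e])).trans
      (Finsupp.notMem_support_iff.1 fun e => hw (Finset.mem_union_right _ e))
  refine ⟨max d 0, le_max_right _ _, ?_⟩
  filter_upwards [hy, hd, s2] with k S hd e ha z hz
  have hd' : ∀ t, s k = t → ∀ ha : Act J.m c i.1 (some i.2) (J.Θ t), ∀ x, ∀ z ∈ (J.K c i.1 _ _ ha).dp d,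
      (J.τ c (q k) t).D x z =
        ((J.xs i.1).N.pt (J.K c i.1 _ _ ha) ((J.xs i.1).q (q k)) : Pt _ _ _ r n).D x z ∧
      (J.τ c (q k) t).C x z =
        ((J.xs i.1).N.pt (J.K c i.1 _ _ ha) ((J.xs i.1).q (q k)) : Pt _ _ _ r n).C x z := by
    rintro _ rfl _; exact hd
  have t : z ∈ (J.K c i.1 _ _ ha).ψ.target := (J.K c i.1 _ _ ha).tgt.ge
    ((J_end hJ ha).ge ((le_max_right d 0).trans_lt hz))
  obtain ⟨b1, b2⟩ := hd' _ e ha (y k).x z (by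
    have := ((le_max_left d 0).trans_lt hz).le
    show _ ∈ Dp _ _ d
    rw [(hJ.nk _ _ _ _ ha).lo, (hJ.nk _ _ _ _ ha).hi]
    revert this
    cases i.2 <;> simp [Dp, pm, le_neg])
  have pc := fun ρ k => H.pok.pc ρ (H.pok.sub k)
  refine ⟨(congrArg (_ - ·) b1).symm.trans ?_,
    (congrArg (_ - ·) b2).symm.trans (S.C z (hJ.end_sub ha H.pok.pc hi t))⟩
  by_cases k : i ∈ EdP c p.P'
  · exact S.D z (hJ.end_sub ha pc k t)
  · exact Sw88.Lip.D0 (Λ.B_ok _ _) (hJ.G_ok H.mem S.ov) (hJ.τ_nat H.mem S.ov isClopen_univ _)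
      (isClopen_un pc).compl S.adm S.off (Sw88.Aex.end_off hJ pc k ha t)

/-- the data of an end, as in `Pte3.endD` -/
theorem ecJ : ∃ (ψ : α → (J.xs i.1).Y.M × ℝ → (W.Z c).M) (c₀ : _),
    (∀ᶠ k in l, ∃ ha, ψ k = (J.K c i.1 (some i.2) (J.Θ (y k).s) ha).ψ) ∧
      Ec (J.xs i.1).D (-pm i.2) 0 l (fun k => pb (ψ k) (y k).x) (fun k => (y k).β i.1 i.2)
        (fun k => (y k).ζ i.1 i.2) c₀ (y₀.β i.1 i.2) := by
  have hJ := H.ok
  set K := J.K c i.1 _ _ (ac H h0 i)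
  have : Nonempty ((J.xs i.1).Y.M × ℝ → (W.Z c).M) := ⟨K.ψ⟩
  obtain ⟨ψ, hψ⟩ := skolem.1 (hy.mono fun k S => (⟨_, ac H S i, rfl⟩ :
    ∃ ψ : (J.xs i.1).Y.M × ℝ → (W.Z c).M, ∃ ha, ψ = (J.K c i.1 (some i.2) (J.Θ (y k).s) ha).ψ))
  have b0 := Dgr80.adm_crit (h0.crit _ i.1.2 _ hi)
  obtain ⟨u, ζ, hu, -⟩ := st.lim
  refine ⟨ψ, K.pb y₀.x, hψ, ?_, b0, fun η hη => ?_, admOn_nk K h0.adm (J_end hJ _).ge,
    ⟨_, limY_nk K b0 h0.adm (dr_sub _) (h0.lim _ _ _ hi)⟩, fun i z => u i (K.ψ z), ζ,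
    fun k m L hm => cz_nk K hu (isClopen_un H.pok.pc).2 (hJ.end_sub _ H.pok.pc hi) h0.adm ?_
      (fun t ht => (J_end hJ _).ge ?_) k⟩
  · filter_upwards [hy, hψ] with k S ⟨ha', e⟩
    have := Dgr80.adm_crit (S.crit _ i.1.2 _ hi)
    rw [e]
    exact ⟨admOn_nk _ S.adm (J_end hJ _).ge, this, limY_nk _ this S.adm (dr_sub _) (S.lim _ _ _ hi)⟩
  · obtain ⟨T, h⟩ := st.tail _ _ hi η hη
    refine ⟨T, ?_⟩
    filter_upwards [hy, hψ, h] with k S ⟨ha', e⟩ h s hs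
    obtain ⟨h1, v, ξ, h2⟩ := h ha' (-pm i.2 * s) (by
      rcases pm_sg i.2 with e | e <;> rw [e] <;> linarith)
    rw [e]
    exact ⟨v, ξ, cl_of_cls b0 (admOn_nk _ S.adm h1) h2⟩
  · filter_upwards [hy, hψ] with k S ⟨ha', e⟩
    refine ⟨S.adm.ok, fun x hx j => ?_, fun z hz => e ▸ (hJ.end_eq (ac H h0 i) ha').ψ hz⟩
    rw [← (agr_end Λ i.1.2 (ac H h0 i).2.2.1 ha'.2.2.1).e x
      (isNk_sub (ac H h0 i) (hJ.nk _ _ _ _ _) hx) j]
    exact congrFun (congrFun (Lay.F_e _ (Mark.mem_Ω _ ha'.2.2.1)).symm j) x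
  · show _ < -pm i.2 * t
    rcases pm_sg i.2 with e | e <;> rw [e] at ht ⊢ <;> linarith [ht.1, ht.2]

end one

/-- tails in the coordinates of a chart -/
theorem eb_of (hJ : J.OK) {b : Bp J c} {δ : ℝ} (E : EC b p Empty δ) {i : Ed c}
    (hβ : (J.xs i.1).D.Adm (E.β i)) {ψ : α → (J.xs i.1).Y.M × ℝ → (W.Z c).M}
    (hψ : ∀ᶠ k in l, (y k).x.Adm (J.B c) (J.G c (y k).s) ∧
      ∃ ha, ψ k = (J.K c i.1 (some i.2) (J.Θ (y k).s) ha).ψ) {d R : ℝ} {θ : α → Circle}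
    (h : Ta (J.xs i.1).D (E.β i) (-pm i.2) d l (fun k => pb (ψ k) (y k).x) θ R) (t : α → Tq p Empty) :
    ∃ v : ∀ k, (J.xs i.1).Y.M × ℝ → CL (y k).x.m.V (E.β i).m.V, ∀ R', max R 1 ≤ R' →
      (∀ᶠ k in l, ∀ j, ∃ C, (en E i).EB (y k).x (E.lim i (t k)) (v k) (θ k) d R' j C) ∧
      ∀ j, ∃ C, ∀ᶠ k in l, (en E i).EB (y k).x (E.lim i (t k)) (v k) (θ k) d R' j C := by
  obtain ⟨v, h1, h2⟩ := h
  have key : ∀ R', max R 1 ≤ R' → ∀ᶠ k in l, ∀ j C, (∀ s, R ≤ s → Cl (J.xs i.1).D.Z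
      (pb (ψ k) (y k).x) (cy (E.β i)) (v k) (fun _ => θ k) (Cay24.wn _ (-pm i.2) s) j
        (C * exp (-d * s))) → (en E i).EB (y k).x (E.lim i (t k)) (v k) (θ k) d R' j C :=
    fun R' hR => hψ.mono fun k ⟨a, ha, e⟩ j C h s hs => by
      have s1 : Ioo (-pm i.2 * s - 1) (-pm i.2 * s + 1) ⊆ (J.K c i.1 _ _ ha).J := fun z hz =>
        (J_end hJ ha).ge (Dec35.wn_sub (Y := Unit) (T := 0) (pm_sg i.2)
          (by linarith [le_max_right R 1]) (a := ((), z)) ⟨trivial, hz⟩).2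
      have k1 : ∀ χ : _ → _, χ = (J.K c i.1 _ _ ha).ψ → ∀ u : _ → CL (y k).x.m.V (E.β i).m.V,
          Cl (J.xs i.1).D.Z (pb χ (y k).x) (cy (E.β i)) u (fun _ => θ k)
            (Cay24.wn _ (-pm i.2) s) j (C * exp (-d * s)) →
          (J.xs i.1).D.Cls ((J.K c i.1 _ _ ha).pb (y k).x) (E.β i) u (θ k)
            (Ioo (-pm i.2 * s - 1) (-pm i.2 * s + 1)) j (C * exp (-d * s)) := by
        rintro _ rfl u h
        exact Cl.cls hβ isOpen_Ioo (admOn_nk _ a s1) h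
      rw [show (en E i).sg = -pm i.2 by obtain ⟨_, _ | _⟩ := i <;> simp [End.sg, pm]]
      exact cls_bh (by rw [EC.lm, show E.μ i = none from (E.μ i).casesOn rfl fun u => u.elim]; simp)
        ((hJ.end_eq ha ⟨i.1.2.2, b.br, b.O, i.1.2.1⟩).cls s1
          (k1 _ e _ (h s (by linarith [le_max_left R 1]))))
  exact ⟨v, fun R' hR => ⟨(h1.and (key R' hR)).mono fun k h j => (h.1 j).imp fun C a => h.2 j C a,
    fun j => (h2 j).imp fun C a => (a.and (key R' hR)).mono fun k h => h.2 j C h.1⟩⟩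

theorem Ta.congr {Y : Mf 3} [CompactSpace Y.M] {D : YD Y.I Y.M κ lam} {β : YC Y.M κ lam}
    {σ d R : ℝ} {c : α → Cfg (Y.M × ℝ) (Option κ) lam r} {ζ ξ : α → Circle}
    (h : Ta D β σ d l c ζ R) (e : ∀ᶠ k in l, ζ k = ξ k) : Ta D β σ d l c ξ R :=
  let ⟨v, h1, h2⟩ := h
  ⟨v, (h1.and e).mono fun _ k => k.2 ▸ k.1, fun j => (h2 j).imp fun _ a =>
    (a.and e).mono fun _ k => k.2 ▸ k.1⟩

variable {a : A}

/-- **A-TL** -/
theorem tlA (hI : MJ J c a → ∃ C : (J.xs a).N.CD (J.xs a).D, ∀ i,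
      Dec35.Ipt (J.xs a).D (C.β i) (J.xs a).N) (hU : UA J c a) : TlA J c a := fun hM => by
  classical
  obtain ⟨C, hI⟩ := hI hM
  have hx := hM.ok.xs
  have := J.conn_xs
  choose g g0 hg using fun o => (hI o).loc
  choose d d0 hd using fun o =>
    Dec35.dec_bl (hx a).1.yd (hx a).2 (C.crit o) (C.irr o) (hI o).p1 (hI o).lz (g0 o)
  have : ∀ x, ∃ e > 0, x ∈ cylW c → x ≠ a → ∀ β, Bs (J.xs x).D β → Tl47.DR (J.xs x).D β e :=
    fun x => by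
      by_cases k : x ∈ cylW c ∧ x ≠ a
      · exact (Tl47.deceU (hM.py x k.1 k.2)).imp fun _ h => ⟨h.1, fun _ _ => h.2⟩
      · exact ⟨1, one_pos, fun k1 k2 => absurd ⟨k1, k2⟩ k⟩
  choose e e0 he using this
  obtain ⟨d₁, p1, f1⟩ := exists_pos_le d0
  obtain ⟨d₂, p2, f2⟩ := exists_pos_le e0
  filter_upwards [Ioo_mem_nhdsGT (lt_min p1 p2)] with δ hδ
  refine .of fun _ σ p H b δ' E G q₀ _ α 𝒰 q y y₀ x₀ ψ₀ hq hy h0 st R m => ?_
  have hs := hy.mono fun _ k => k.2.toSolOn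
  have m' : ∀ i ∈ EdP c p.P, (J.xs i.1).D.Eqv (y₀.β i.1 i.2) (E.β i) := fun i hi =>
    Sw88.Amd.lim_eq E i x₀.t ▸ m i hi
  have ad := fun i hi => Dgr80.adm_crit (G.crit i hi)
  have : Nonempty (YC (J.xs a).Y.M κ (lam ⊕ lam)) := ⟨y₀.β a false⟩
  choose! f hf using fun γ (h : (J.xs a).N.Crit (J.xs a).D γ) =>
    (let ⟨o, k⟩ := C.cov γ h; ⟨_, o, rfl, k⟩ : ∃ β, ∃ o, β = C.β o ∧ (J.xs a).D.Eqv γ (C.β o))
  let θ : Bool → α → Circle := fun b k => Ξ (J.xs a).D (f (y₀.β a b)) (E.β (⟨a, hM.mem⟩, b)) *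
    (Ξ (J.xs a).D ((y k).β a b) (f (y₀.β a b)) * (y k).ζ a b)
  have key : ∀ i : Ed c, ∃ R, ∃ v : ∀ k, (J.xs i.1).Y.M × ℝ → CL (y k).x.m.V (E.β i).m.V,
      i ∈ EdP c p.P → (∀ᶠ k in (𝒰 : Filter α), (J.xs i.1).D.Eqv ((y k).β i.1 i.2) (E.β i)) ∧
      ∀ R', R ≤ R' → (∀ᶠ k in (𝒰 : Filter α), ∀ j, ∃ C, (en E i).EB (y k).x
        (E.lim i (fun a => (y k).s a, 0)) (v k) (θ (decide ¬p.En a false) k) (min d₁ d₂) R' j C) ∧
      ∀ j, ∃ C, ∀ᶠ k in (𝒰 : Filter α), (en E i).EB (y k).x (E.lim i (fun a => (y k).s a, 0)) (v k)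
        (θ (decide ¬p.En a false) k) (min d₁ d₂) R' j C := fun i => by
    by_cases hi : i ∈ EdP c p.P
    swap
    · exact ⟨0, fun _ => 0, fun k => absurd k hi⟩
    obtain ⟨ψ, c₀, hψ, ec⟩ := ecJ H hs h0.toSolOn st hi
    suffices k : (∀ᶠ k in (𝒰 : Filter α), (J.xs i.1).D.Eqv ((y k).β i.1 i.2) (E.β i)) ∧ ∃ R,
        Ta (J.xs i.1).D (E.β i) (-pm i.2) (min d₁ d₂) 𝒰 (fun k => pb (ψ k) (y k).x)
          (θ (decide ¬p.En a false)) R by
      obtain ⟨k1, R, k2⟩ := k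
      obtain ⟨v, k3⟩ := eb_of H.ok E (ad i hi) ((hs.and hψ).mono fun _ k => ⟨k.1.adm, k.2⟩) k2
        fun k => (fun a => (y k).s a, 0)
      exact ⟨_, v, fun _ => ⟨k1, k3⟩⟩
    by_cases k : i.1.1 = a
    · obtain ⟨⟨a, k'⟩, b⟩ := i
      obtain rfl : a = _ := k
      obtain ⟨o, e1, e2⟩ := hf _ (h0.crit a k' b hi)
      obtain ⟨S, Q, k₁, Kc, T, hA⟩ := hU σ p H _ _ (C.crit o) (hI o).p1 (g0 o) (hg o) α 𝒰 q y q₀ y₀
        hq hs h0.toSolOn st b k' hi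
      have a0 := Dgr80.adm_crit (C.crit o)
      obtain ⟨k1, R, k2⟩ := endC (k' := k₁) (K := Kc) (hx a).1.yd (pm_sg b) (d0 o) C o (hd o S Q)
        (ec.mono (le_max_left 0 T)) (by
          filter_upwards [hs, hψ, hA] with k S ⟨ha, e⟩ hA
          obtain ⟨τ, t1, t2⟩ := hA ha
          rw [e]
          exact ⟨S.crit a k' b hi, τ, t1, t2.mono fun s hs => (le_max_right 0 T).trans_lt hs⟩)
        e2 (ad _ hi) (Eqv71.IsoOn.trans (hx a).1.yd.B (hx a).1.yd.G isOpen_univ (Eqv71.ad0 a0.adm)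
          (Eqv71.ad0 ec.b0.adm) (Eqv71.ad0 (ad _ hi).adm)
          (Pnt66.eqv_symm (hx a).1.yd ec.b0 a0 e2) (m' _ hi))
      refine ⟨k1, _, (k2.mono (le_max_left R 0) (le_max_right R 0)
        ((min_le_left _ _).trans (f1 o))).congr (hy.mono fun k S => ?_)⟩
      rw [← e1]
      show θ b k = _
      by_cases e : p.En a false
      · rw [decide_eq_false (not_not.2 e)]
        cases b
        · rfl
        · simp only [θ, h0.one e hi, S.2.one e hi, G.mt _ e hi]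
      · rw [decide_eq_true e]
        cases b
        exacts [absurd hi e, rfl]
    · have nl := hM.nil _ k
      have bs := fun β => Sw88.Elr.bs (β := β) (hx _).1.yd (J.xs i.1).Y.dim nl.1 (hM.py _ i.1.2 k)
      obtain ⟨T, t0, hT⟩ := eqU H hs h0.toSolOn st hi hq
      refine endL (pm_sg _) (lt_min p1 p2) (hM.py _ i.1.2 k) (fun β h => (he _ i.1.2 k β h).mono
        ((min_le_right _ _).trans (f2 _))) (Nbh31.nbH _) (St29.Id.idF _) (ec.mono t0) ?_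
        (bs _ (h0.crit _ i.1.2 _ hi)) (bs _ (G.crit i hi)) (m' i hi) _
      filter_upwards [hs, hψ, hT] with k S ⟨ha, e⟩ hT
      have := hT ha
      rw [show (J.xs i.1).q (q k) = 0 by simp [Xs.q, nl.2]] at this
      rw [e]
      exact ⟨bs _ (S.crit _ i.1.2 _ hi), this.eqs nl.1 fun s hs =>
        (J_end H.ok ha).ge (t0.trans_lt hs)⟩
  choose R' v key using key
  obtain ⟨R₀, hR⟩ := (finite_range R').bddAbove
  refine ⟨fun k => (fun a => (y k).s a, 0), R₀, min d₁ d₂, _, fun k i => v i k, ?_, G.eq ▸ hδ.2,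
    (eventually_all.2 fun i => eventually_imp_distrib_left.2 fun hi => (key i hi).1).mono
      fun k e => ⟨fun _ => rfl,
      fun i hi => (Sw88.Amd.lim_eq E i _).symm ▸ e i hi⟩, fun i hi => (key i hi).2 _ (hR ⟨i, rfl⟩)⟩
  rw [show x₀.t = (fun a : p.V => y₀.s a, 0) from Prod.ext (funext R.s) (Subsingleton.elim _ _)]
  exact (tendsto_pi_nhds.2 fun a => tendsto_pi_nhds.1 st.s _).prodMk_nhds tendsto_const_nhds

end Crest.Agent.X212.Tla99
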