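import Crest.Agent.X212.Dec35.As
import Crest.Agent.X212.Loc66.Lim
import Crest.Agent.X212.Cht98.Fam
import Crest.Agent.X212.Glc56.Gen

/-!
# Row 212, A-TL (helper99): patching along a clopen set, uniform references
-/

set_option autoImplicit false
set_option linter.unusedSectionVars false
noncomputable section
open scoped Manifold ContDiff Topology InnerProductSpace
open MeasureTheory Set Function Filter Real

namespace Crest.Agent.X212.Tla99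
open An Sob92 Pj41 Cmp73
open Tmp64 (AdmOn Eq0 admOn_univ)
open Dgr80 (Gd)
open Cht98 (Agr)
open Loc66 (FCv Bub)
open Spn45 (can)

variable {E : Type} [NormedAddCommGroup E] [NormedSpace ℝ E] [FiniteDimensional ℝ E]
  [MeasurableSpace E] [BorelSpace E]
  {HM : Type} [TopologicalSpace HM] {I : ModelWithCorners ℝ E HM} [I.Boundaryless]
  {M : Type} [TopologicalSpace M] [ChartedSpace HM M] [IsManifold I ∞ M]
  [MeasurableSpace M] [T2Space M] [BorelSpace M] [SecondCountableTopology M] {r : ℕ}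
  {ι lam : Type} [Fintype ι] [Fintype lam] {B : Base M ι lam} {G G₀ : Geo I M ι lam}
  {x₁ x₂ c : Cfg M ι lam r} {O : Set M}

theorem gd_mk (hB : B.OK I) (hG : G.OK B) (ht : ∃ C, G.F.Tame C) (hc : c.Adm B G) {C : ℕ → ℝ}
    (h : CBc G.F.toPre c C) : Gd B G c := by
  obtain ⟨h1, h2, h3, h4, h5⟩ := exists_cbc.1 ⟨C, h⟩
  refine ⟨⟨hB, hG, hc.ok, hc.conn, ht, h4, ?_⟩, hc, h5, h1, h2, h3⟩
  rw [show c.m.pg = _ from funext fun y => Std94.pg_eq hB (Std94.pmx hc.ok y)]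
  exact Std94.Kl.pgF (K := Std94.cbK G.F.toPre) (Cb_const _) h2 h3

open Classical in
/-- **patching** -/
theorem pat (hO : IsClopen O) (h₁ : Gd B G x₁) (h₂ : Gd B G x₂) (hz : x₂.z = x₁.z) :
    ∃ x u₁ u₂, Gd B G x ∧ Eq0 G.F x₁ x O u₁ ∧ Eq0 G.F x₂ x Oᶜ u₂ := by
  obtain ⟨J, i₁, i₂, S⟩ := exists_sum2 h₁.ok.Jsq h₁.ok.Jsk h₂.ok.Jsq h₂.ok.Jsk
  have o := hO.1.isOpen_compl
  obtain ⟨a1, a2⟩ := stab_spec S.e₁ hO.2 ((admOn_univ.2 h₁.adm).mono (subset_univ _))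
  obtain ⟨b1, b2⟩ := stab_spec S.e₂ o ((admOn_univ.2 h₂.adm).mono (subset_univ _))
  let x : Cfg M ι lam r := ⟨⟨_, J, O.piecewise (stab x₁ J i₁).m.p (stab x₂ J i₂).m.p,
    fun s => O.piecewise ((stab x₁ J i₁).m.ρ s) ((stab x₂ J i₂).m.ρ s),
    O.piecewise (stab x₁ J i₁).m.j (stab x₂ J i₂).m.j⟩,
    fun s => O.piecewise ((stab x₁ J i₁).W s) ((stab x₂ J i₂).W s),
    O.piecewise (stab x₁ J i₁).Φ (stab x₂ J i₂).Φ, x₁.z⟩
  have l1 : ∀ y ∈ O, LitAt x x₁ i₁ y y := fun y hy => ⟨piecewise_eq_of_mem _ _ _ hy,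
    fun _ => piecewise_eq_of_mem _ _ _ hy, piecewise_eq_of_mem _ _ _ hy,
    fun _ => piecewise_eq_of_mem _ _ _ hy, piecewise_eq_of_mem _ _ _ hy⟩
  have l2 : ∀ y ∈ Oᶜ, LitAt x x₂ i₂ y y := fun y hy => ⟨piecewise_eq_of_notMem _ _ _ hy,
    fun _ => piecewise_eq_of_notMem _ _ _ hy, piecewise_eq_of_notMem _ _ _ hy,
    fun _ => piecewise_eq_of_notMem _ _ _ hy, piecewise_eq_of_notMem _ _ _ hy⟩
  have hx : x.Adm B G := admOn_univ.1 (admOn_of_local S.e₁.sq S.e₁.sk h₁.adm.z fun y _ =>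
    (Classical.em (y ∈ O)).elim (fun hy => ⟨O, hy, admOn_same hO.2 (fun y hy => (l1 y hy).p)
      (fun b y hy => (l1 y hy).ρ b) (fun y hy => (l1 y hy).j) a1 (fun b y hy => (l1 y hy).W b)
      (fun y hy => (l1 y hy).Φ) h₁.adm.z⟩) fun hy => ⟨Oᶜ, hy, admOn_same o (fun y hy => (l2 y hy).p)
      (fun b y hy => (l2 y hy).ρ b) (fun y hy => (l2 y hy).j) b1 (fun b y hy => (l2 y hy).W b)
      (fun y hy => (l2 y hy).Φ) h₁.adm.z⟩)
  obtain ⟨C1, k1⟩ := exists_cbc.2 ⟨h₁.p, h₁.ρ, h₁.j, h₁.W, h₁.Φ⟩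
  obtain ⟨C2, k2⟩ := exists_cbc.2 ⟨h₂.p, h₂.ρ, h₂.j, h₂.W, h₂.Φ⟩
  obtain ⟨C3, k3⟩ := exists_cbc_stab k1 J i₁
  obtain ⟨C4, k4⟩ := exists_cbc_stab k2 J i₂
  refine ⟨x, _, fun y => i₂ ∘L x₂.m.p y, Dec35.gd_of h₁ hx (C := fun k => max (C3 k) (C4 k)) (cbc_of_bAc hx fun y => ?_),
    Glc56.eq0_tgt a2 (fun y hy => (l1 y hy).p) (fun b y hy => (l1 y hy).ρ b)
      (fun y hy => (l1 y hy).j) (fun b y hy => (l1 y hy).W b) fun y hy => (l1 y hy).Φ, ?_⟩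
  · by_cases hy : y ∈ O
    · exact ((FRel.refl G.F hO.2).bAc_lit (c := x) k3 l1 hy).mono fun k => le_max_left _ _
    · exact ((FRel.refl G.F o).bAc_lit (c := x) k4 l2 hy).mono fun k => le_max_right _ _
  · have := Glc56.eq0_tgt b2 (fun y hy => (l2 y hy).p) (fun b y hy => (l2 y hy).ρ b)
      (fun y hy => (l2 y hy).j) (fun b y hy => (l2 y hy).W b) fun y hy => (l2 y hy).Φ
    exact ⟨this.iso, this.par, this.Φ, hz.symm⟩

theorem can_agr (h : Agr G₀ G O) (m : Md M ι lam) {x : M} (hx : x ∈ O) (a : ι) :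
    can m G a x = can m G₀ a x := by
  have e : ∀ {V : Type} [NormedAddCommGroup V] [NormedSpace ℝ V] (f : M → V) a,
      dv I (G.F.e a) f x = dv I (G₀.F.e a) f x := fun f a => by simp only [dv, h.e x hx]
  simp only [can, Spn45.cw, Spn45.dj, Spn45.w2, Spn45.w1, Spn45.th, Pre.D_def, e, h.a x hx,
    h.rel.Gam hx, id]

variable {α : Type} {l : Filter α} [l.NeBot]

theorem bdd_cpt {f : α → M → ℝ} {g : M → ℝ} (h : Cv I l O f g) {K : Set M} (hK : IsCompact K)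
    (hs : K ⊆ O) : ∃ C, ∀ᶠ n in l, ∀ y ∈ K, f n y ≤ C := by
  refine hK.induction_on (p := fun K => ∃ C, ∀ᶠ n in l, ∀ y ∈ K, f n y ≤ C) ⟨0, by simp⟩
    (fun s t e ⟨C, k⟩ => ⟨C, k.mono fun _ k y hy => k y (e hy)⟩) (fun s t ⟨C, k⟩ ⟨C', k'⟩ =>
      ⟨max C C', (k.and k').mono fun _ k y hy => hy.elim (fun a => le_max_of_le_left (k.1 y a))
        fun a => le_max_of_le_right (k.2 y a)⟩) fun y hy => ?_
  obtain ⟨C, k⟩ := (h.mb 0 y (hs hy)).bdd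
  obtain ⟨_, a, _, b, e⟩ := eventually_prod_iff.1 k
  exact ⟨_, mem_nhdsWithin_of_mem_nhds b, C, a.mono fun n hn z hz => (le_abs_self _).trans (e hn hz)⟩

/-- **references** with a uniform bound for the curvature -/
theorem ref {G : α → Geo I M ι lam} {x₀ : Cfg M ι lam r} (h₀ : Gd B G₀ x₀) {K : Set M}
    (hK : IsCompact K) (f : FCv l univ (fun n => (G n).F) G₀.F)
    (ha : ∀ a, Cv I l univ (fun n => (G n).a a) (G₀.a a))
    (hG : ∀ᶠ n in l, (G n).OK B ∧ (∃ C, (G n).F.Tame C) ∧ Agr G₀ (G n) Kᶜ) :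
    ∃ C, ∀ᶠ n in l, ∀ z, r = 0 ∨ ‖z‖ = 1 → ∃ x : Cfg M ι lam r, Gd B (G n) x ∧ x.z = z ∧
      (∀ y, x.Φ y = 0) ∧ ∀ y, ‖x.m.Fg (G n).F x.W y‖ ^ 2 ≤ C := by
  have c0 := Spn45.isConn_can h₀.hB h₀.hG h₀.ok
  have cv : ∀ a, Cv I l univ (fun n => Bub.rf G G₀ x₀.W n a) (x₀.W a) := fun a =>
    ((Loc66.cv_can f isOpen_univ ha h₀.ok a).add (Cv.fixed' fun x => (h₀.conn.cc.sm a x).sub
      (c0.cc.sm a x))).congr' isOpen_univ (.of_forall fun _ _ _ => rfl) fun x _ => by abel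
  have k := f.Fg isOpen_univ h₀.hB h₀.ok cv
  obtain ⟨C, k1⟩ := bdd_cpt (Cv.sum fun s => (k s).bil (innerSL ℝ) (k s)) hK (subset_univ _)
  obtain ⟨C', k2⟩ := Fin37.cb_Fg h₀
  obtain ⟨C0, k0⟩ := exists_cbc.2 ⟨h₀.p, h₀.ρ, h₀.j, h₀.W, h₀.Φ⟩
  refine ⟨max C C', (k1.and hG).mono fun n ⟨k1, g1, g2, g3⟩ z hz => ?_⟩
  have e : ∀ a, ∀ y ∈ Kᶜ, ∀ᶠ y' in 𝓝 y, x₀.W a y' = Bub.rf G G₀ x₀.W n a y' := fun a y hy =>
    (g3.op.eventually_mem hy).mono fun y' k => by rw [Bub.rf, can_agr g3 _ k]; abel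
  have A : (⟨x₀.m, Bub.rf G G₀ x₀.W n, 0, z⟩ : Cfg M ι lam r).Adm B (G n) :=
    ⟨h₀.ok, (Loc66.connOn_add (IsConn.on (Spn45.isConn_can h₀.hB g1 h₀.ok) _)
      (Loc66.cmt_sub (IsConn.on c0 _) (IsConn.on h₀.conn _))).isConn h₀.ok, contMDiff_const,
      fun _ => map_zero _, hz⟩
  obtain ⟨C1, k3⟩ := exists_bAc A hK
  have R : FRel G₀.F (G n).F id Kᶜ := (⟨g3.op, fun x hx a => (g3.e x hx a).symm,
    fun x hx a => (g3.a x hx a).symm⟩ : Agr (G n) G₀ Kᶜ).rel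
  refine ⟨_, gd_mk h₀.hB g1 g2 A (C := fun k => max (C1 k) |C0 k|) (cbc_of_bAc A fun y => ?_), rfl,
    fun _ => rfl, fun y => ?_⟩
  · by_cases hy : y ∈ K
    · exact (k3 y hy).mono fun _ => le_max_left _ _
    have t : ∀ {V : Type} [NormedAddCommGroup V] [NormedSpace ℝ V] {u : M → V},
        ∀ᶠ y' in 𝓝 y, u y' = u (id y') := .of_forall fun _ => rfl
    exact BAc.mono (C := fun k => |C0 k|) ⟨R.bAt hy t (CBs_mono k0.p fun _ => le_abs_self _),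
      fun a => R.bAt hy t (CBs_mono (k0.ρ a) fun _ => le_abs_self _),
      R.bAt hy t (CBs_mono k0.j fun _ => le_abs_self _),
      fun a => R.bAt hy (e a y hy) (CBs_mono (k0.W a) fun _ => le_abs_self _),
      R.bAt hy t ⟨contMDiff_const, fun k => CB_mono (CB_const k 0) (by simp)⟩⟩
      fun _ => le_max_right _ _
  · by_cases hy : y ∈ K
    · refine le_max_of_le_left (le_of_eq_of_le ?_ (k1 y hy))
      simp only [← real_inner_self_eq_norm_sq]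
      rfl
    · have e1 : x₀.m.Fg G₀.F (Bub.rf G G₀ x₀.W n) y = x₀.m.Fg (G n).F (Bub.rf G G₀ x₀.W n) y :=
        R.Fg (m := x₀.m) hy _
      have e2 := Loc66.Fg_congr (F := G₀.F) fun a => e a y hy
      refine le_max_of_le_right (le_of_eq_of_le ?_ (k2 y))
      rw [e2, e1]

end Crest.Agent.X212.Tla99
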