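import Crest.Agent.X212.Tla99.Main
import Crest.Agent.X212.Mcg32.LinCl

/-!
# Row 212, A-TL (helper99): uniform pointwise bounds on a part
-/

set_option autoImplicit false
set_option linter.unusedSectionVars false
noncomputable section
open scoped Manifold ContDiff Topology InnerProductSpace
open MeasureTheory Set Function Filter Real

namespace Crest.Agent.X212.Tla99
open An Nd18 Cyf70 Bki64 Neck67 Pj41 Cmp73 Pte3 Sob92
open Tmp64 (AdmOn admOn_univ)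
open Wz78 (nab)

section gen
variable {E : Type} [NormedAddCommGroup E] [NormedSpace ℝ E] [FiniteDimensional ℝ E]
  [MeasurableSpace E] [BorelSpace E]
  {HM : Type} [TopologicalSpace HM] {I : ModelWithCorners ℝ E HM} [I.Boundaryless]
  {M : Type} [TopologicalSpace M] [ChartedSpace HM M] [IsManifold I ∞ M]
  [MeasurableSpace M] [T2Space M] [BorelSpace M] [SecondCountableTopology M] {r r' : ℕ}
  {ι lam : Type} [Fintype ι] [Fintype lam] {B : Base M ι lam} {G : Geo I M ι lam} {F : Fr I M ι}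
  {c : Cfg M ι lam r} {c' : Cfg M ι lam r'} {O K : Set M} {x : M} {C C' : ℝ}

variable (F c x C) in
/-- pointwise bounds -/
structure Bq : Prop where
  Φ : ‖c.Φ x‖ ≤ C
  F' : ∀ s, ‖c.m.Fg F c.W x s‖ ^ 2 ≤ C
  N : ∀ a, ‖nab I F.e c.W a c.Φ x‖ ^ 2 ≤ C

theorem Bq.mono (h : Bq F c x C) (e : C ≤ C') : Bq F c x C' :=
  ⟨h.Φ.trans e, fun s => (h.F' s).trans e, fun a => (h.N a).trans e⟩

theorem Bq.Fg (h : Bq F c x C) : ‖c.m.Fg F c.W x‖ ^ 2 ≤ ∑ _s : ι × ι, C :=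
  (PiLp.norm_sq_eq_of_L2 _ _).trans_le (Finset.sum_le_sum fun s _ => h.F' s)

theorem Bq.en (h : Bq F c x C) {τ : M → ℝ} {A : ℝ} (hA : ∀ a, ‖F.D a τ x‖ ≤ A) :
    Dgr80.en F c τ x ≤ (∑ _a : ι, (∑ _k : ι, A * √C) ^ 2) / 4 + (∑ _k : ι, A * √C) ^ 2 := by
  have k : ∀ {V : Type} [NormedAddCommGroup V] [NormedSpace ℝ V] {f : ι → V},
      (∀ a, ‖f a‖ ^ 2 ≤ C) → ‖∑ a, F.D a τ x • f a‖ ^ 2 ≤ (∑ _k : ι, A * √C) ^ 2 := fun hf =>
    pow_le_pow_left₀ (norm_nonneg _) (norm_sum_le_of_le _ fun a _ => (norm_smul_le _ _).trans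
      (mul_le_mul (hA a) (le_sqrt_of_sq_le (hf a)) (norm_nonneg _) ((norm_nonneg _).trans (hA a)))) 2
  exact add_le_add (div_le_div_of_nonneg_right ((PiLp.norm_sq_eq_of_L2 _ _).trans_le
    (Finset.sum_le_sum fun a _ => k fun b => h.F' (b, a))) zero_le_four) (k h.N)

theorem norm_Φ {u : CL c.m.V c'.m.V} (h : CIso u (c.m.p x) (c'.m.p x)) (e : c.m.p x (c.Φ x) = c.Φ x)
    (h1 : c'.m.J * c'.m.J = -1) (h2 : Skw c'.m.J) (ζ : Circle) :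
    ‖cs c'.m.J ζ (u (c.Φ x))‖ = ‖c.Φ x‖ := by
  rw [Mp86.norm_cs h1 h2, Circle.norm_coe, one_mul, norm_eq_sqrt_real_inner, h.inner, e,
    ← norm_eq_sqrt_real_inner]

theorem bq_cpt (hB : B.OK I) {Ω : Set M} (hΩ : IsOpen Ω) (hc' : AdmOn c' B G Ω) (hK : IsCompact K)
    (hs : K ⊆ Ω) : ∃ C, ∀ r (c : Cfg M ι lam r) u (ζ : Circle) O, AdmOn c B G O →
      Cl G.F c c' u (fun _ => ζ) O 1 1 → ∀ x ∈ O ∩ K, Bq G.F c x C := by
  obtain ⟨C, h1, h2, h3, h4⟩ := ((q_bd hB hΩ hc' hK hs).and ((exists_bd (f := fun _ : Unit => c'.Φ)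
    hK fun _ x hx => hc'.sm x (hs hx)).and ((exists_bd (f := fun s => qF G.F c' s s) hK
      fun s x hx => fsm_inner (fsm_Fg hB hΩ hc' (hs hx) s) (fsm_Fg hB hΩ hc' (hs hx) s)).and
    (exists_bd (f := fun a => qN G.F c' a) hK fun a x hx =>
      fsm_inner (fsm_nab hc' (hs hx) a) (fsm_nab hc' (hs hx) a))))).exists
  refine ⟨2 * C + 1, fun r c u ζ O hc h x hx => ?_⟩
  obtain ⟨a1, a2⟩ := h1 r c u ζ O 1 hc h le_rfl x hx
  have a3 := h2 () x hx.2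
  refine ⟨?_, fun s => ?_, fun a => ?_⟩
  · rw [← norm_Φ (h.iso.iso x hx.1) (hc.pΦ hx.1) hc'.ok.Jsq hc'.ok.Jsk ζ]
    linarith [norm_le_insert' (cs c'.m.J ζ (u x (c.Φ x))) (c'.Φ x), norm_nonneg (c'.Φ x),
      show ‖cs c'.m.J ζ (u x (c.Φ x)) - c'.Φ x‖ ≤ 1 from h.P.le hx.1]
  · rw [← real_inner_self_eq_norm_sq]
    exact (show qF G.F c s s x ≤ _ by linarith [abs_le.1 (a1 s s), abs_le.1 (h3 s x hx.2)])
  · rw [← real_inner_self_eq_norm_sq]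
    exact (show qN G.F c a x ≤ _ by linarith [abs_le.1 (a2 a), abs_le.1 (h4 a x hx.2)])

end gen

section cyl
variable {E : Type} [NormedAddCommGroup E] [NormedSpace ℝ E] [FiniteDimensional ℝ E]
  [MeasurableSpace E] [BorelSpace E]
  {HM : Type} [TopologicalSpace HM] {I : ModelWithCorners ℝ E HM} [I.Boundaryless]
  {M : Type} [TopologicalSpace M] [ChartedSpace HM M] [IsManifold I ∞ M]
  [MeasurableSpace M] [T2Space M] [BorelSpace M] [SecondCountableTopology M]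
  {E3 : Type} [NormedAddCommGroup E3] [NormedSpace ℝ E3] [FiniteDimensional ℝ E3]
  [MeasurableSpace E3] [BorelSpace E3]
  {H3 : Type} [TopologicalSpace H3] {I3 : ModelWithCorners ℝ E3 H3} [I3.Boundaryless]
  {Y : Type} [TopologicalSpace Y] [ChartedSpace H3 Y] [IsManifold I3 ∞ Y] [T2Space Y]
  [MeasurableSpace Y] [BorelSpace Y] [SecondCountableTopology Y] [CompactSpace Y]
  {κ : Type} [Fintype κ] {lam : Type} [Fintype lam] {D : YD I3 Y κ lam} {β : YC Y κ lam} {r : ℕ}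

theorem bq_cy (hD : D.OK) (hβ : D.Adm β) : ∃ C, ∀ r (c : Cfg (Y × ℝ) (Option κ) lam r) u
    (ζ : Circle) O, AdmOn c D.B D.G O → Cl D.Z c (cy β) u (fun _ => ζ) O 1 1 →
      ∀ x ∈ O, Bq D.Z c x C := by
  obtain ⟨C, hC⟩ := bq_cpt hD.B isOpen_univ (admOn_univ.2 hβ.adm) (cwin_cpt 0 1) (subset_univ _)
  refine ⟨C, fun r c u ζ O h hc ⟨y, s⟩ hx => ?_⟩
  have e : Tmp64.sq (· + s) (y, 0) = (y, s) := by simp [Tmp64.sq]
  have hx' : Tmp64.sq (· + s) (y, 0) ∈ O := e.symm ▸ hx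
  have k := hC r _ _ ζ _ (admOn_sh h s) (hc.sh s) (y, 0) ⟨hx', trivial, by simp⟩
  rw [← e]
  refine ⟨k.Φ, fun t => le_of_eq_of_le (congrArg (‖·‖ ^ 2) ?_) (k.F' t),
    fun a => le_of_eq_of_le (congrArg (‖·‖ ^ 2) (congrArg (· + c.W a _ (c.Φ _))
      (dv_sh (D := D) (h.sm _ hx') a).symm)) (k.N a)⟩
  have e : ∀ k, D.Z.c t.1 t.2 k (y, 0) = D.Z.c t.1 t.2 k (Tmp64.sq (· + s) (y, 0)) := fun k => by
    rcases t with ⟨_ | _, _ | _⟩ <;> cases k <;> rfl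
  refine (congrArg (fun T => c.m.pg (Tmp64.sq (· + s) (y, 0)) (hsL T)) ?_).symm
  have e1 := fun a b => dv_sh (D := D) (h.conn.sm b _ hx') a
  exact congrArg₂ (· - ·) (congrArg₂ (· + ·) (congrArg₂ (· - ·) (e1 _ _) (e1 _ _)) rfl)
    (Finset.sum_congr rfl fun k _ => congrArg (· • c.W k (Tmp64.sq (· + s) (y, 0))) (e k))

theorem bq_nk {B : Base M (Option κ) lam} {G : Geo I M (Option κ) lam} (K : Nk D B G)
    {c : Cfg M (Option κ) lam r} {z : M} (hz : z ∈ K.ψ.target) {C : ℝ}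
    (h : Bq D.Z (K.pb c) (K.ψ.symm z) C) : Bq G.F c z C := by
  have hs := K.ψ.map_target hz
  rw [← K.ψ.right_inv hz]
  exact ⟨h.Φ, fun s => le_of_eq_of_le (congrArg (‖· s‖ ^ 2) (K.rel.Fg hs c.W).symm) (h.F' s),
    fun a => le_of_eq_of_le (congrArg (‖·‖ ^ 2) (K.rel.nab hs a rfl
      (.of_forall fun _ => rfl)).symm) (h.N a)⟩

end cyl

open M Mod61 Nk89 Cht98 Rf65 Wrd81
open An.Job (SolOn StrOn isClopen_un)

variable {Wi : Type} {X : Mf 4} {A κ lam : Type} [Fintype A] [Fintype κ] [Fintype lam]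
  [DecidableEq lam] {M : Mark X A κ} {W : World M} {N : ML M lam} {Λ : Lns W N}
  {A' h : Type} [Fintype A'] [DecidableEq A'] [Fintype h] {r n : ℕ}
  {J : Job Wi Λ A' h r n} {c : M.Cl} {σ : Cel A'} {p : Prt A A' h} {α : Type} {l : Filter α}
  {q : α → Wi →₀ ℝ} {y : α → J.Obc c} {q₀ : Wi →₀ ℝ} {y₀ : J.Obc c}
  (H : PG J c σ p) (hy : ∀ᶠ k in l, SolOn p σ (q k) (y k)) (h0 : SolOn p σ q₀ y₀)
  (st : StrOn p l y y₀)
include H hy h0 st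

theorem bq_end {i : Ed c} (hi : i ∈ EdP c p.P) : ∃ C, ∀ᶠ k in l,
    ∀ ha : Act J.m c i.1 (some i.2) (J.Θ (y k).s), ∀ z ∈ (J.K c i.1 _ _ ha).ψ.target,
      1 / 2 ≤ -pm i.2 * (J.K c i.1 _ _ ha).tm z → Bq (J.G c (y k).s).F (y k).x z C := by
  have hJ := H.ok
  have hD := (hJ.xs i.1).1.yd
  set K := J.K c i.1 _ _ (ac H h0 i)
  have : Nonempty ((J.xs i.1).Y.M × ℝ → (W.Z c).M) := ⟨K.ψ⟩
  obtain ⟨ψ, hψ⟩ := skolem.1 (hy.mono fun k S => (⟨_, ac H S i, rfl⟩ :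
    ∃ ψ : (J.xs i.1).Y.M × ℝ → (W.Z c).M, ∃ ha, ψ = (J.K c i.1 (some i.2) (J.Θ (y k).s) ha).ψ))
  have b0 := Dgr80.adm_crit (h0.crit _ i.1.2 _ hi)
  obtain ⟨u, ζ, hu, -⟩ := st.lim
  obtain ⟨T, hT⟩ := st.tail _ _ hi 1 one_pos
  have s1 : ∀ {s} (ha : Act J.m c i.1 (some i.2) s), Icc (-pm i.2 * (|T| + 1 / 2) - (|T| + 1 / 4))
      (-pm i.2 * (|T| + 1 / 2) + (|T| + 1 / 4)) ⊆ (J.K c i.1 _ _ ha).J := fun ha t ht =>
    (J_end hJ ha).ge (show _ < -pm i.2 * t by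
      rcases pm_sg i.2 with e | e <;> rw [e] at ht ⊢ <;> linarith [ht.1, ht.2])
  have cz := cz_nk (ψ := ψ) K hu (isClopen_un H.pok.pc).2 (hJ.end_sub _ H.pok.pc hi) h0.adm (by
    filter_upwards [hy, hψ] with k S ⟨ha', e⟩
    refine ⟨S.adm.ok, fun x hx j => ?_, fun z hz => e ▸ (hJ.end_eq (ac H h0 i) ha').ψ hz⟩
    rw [← (agr_end Λ i.1.2 (ac H h0 i).2.2.1 ha'.2.2.1).e x
      (isNk_sub (ac H h0 i) (hJ.nk _ _ _ _ _) hx) j]
    exact congrFun (congrFun (Lay.F_e _ (Mark.mem_Ω _ ha'.2.2.1)).symm j) x) (s1 _) 1 1 one_pos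
  obtain ⟨C, hC⟩ := bq_cpt hD.B (K.src ▸ K.ψ.open_source) (admOn_nk K h0.adm Subset.rfl)
    (cwin_cpt _ _) (prod_mono_right (s1 _))
  obtain ⟨C', hC'⟩ := bq_cy hD b0
  refine ⟨max C C', ?_⟩
  filter_upwards [hy, hψ, hT, cz] with k S ⟨ha', e⟩ hT cz ha z hz ht
  refine bq_nk _ hz ?_
  rw [← (J.K c i.1 _ _ ha).snd_symm hz] at ht
  rcases le_total T (-pm i.2 * ((J.K c i.1 _ _ ha).ψ.symm z).2) with k1 | k1
  · obtain ⟨h1, v, ξ, h2⟩ := hT ha _ k1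
    have a := admOn_nk _ S.adm h1
    exact (hC' _ _ _ _ _ a ((cl_of_cls b0 a h2).mono (isOpen_univ.prod isOpen_Ioo) Subset.rfl
      (by simp) le_rfl) _ ⟨trivial, by simp⟩).mono (le_max_right _ _)
  · have m : (J.K c i.1 _ _ ha).ψ.symm z ∈ win _ (-pm i.2 * (|T| + 1 / 2)) (|T| + 1 / 4) := by
      refine ⟨trivial, ?_⟩
      rcases pm_sg i.2 with e | e <;> rw [e] at ht k1 ⊢ <;> constructor <;>
        linarith [le_abs_self T, abs_nonneg T]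
    have k2 : ∀ χ : _ → _, χ = (J.K c i.1 _ _ ha).ψ → ∀ v : _ → CL (y k).x.m.V y₀.x.m.V,
        Cl (J.xs i.1).D.Z (pb χ (y k).x) (K.pb y₀.x) v (fun _ => ζ k)
          (win _ (-pm i.2 * (|T| + 1 / 2)) (|T| + 1 / 4)) 1 1 →
        Bq (J.xs i.1).D.Z ((J.K c i.1 _ _ ha).pb (y k).x) ((J.K c i.1 _ _ ha).ψ.symm z) C := by
      rintro _ rfl v h
      exact hC _ _ _ _ _ (admOn_nk _ S.adm (Ioo_subset_Icc_self.trans (s1 ha))) h _ ⟨m, win_cw _ _ m⟩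
    exact (k2 _ e _ cz).mono (le_max_left _ _)

/-- **uniform bounds** -/
theorem ub [l.NeBot] : ∃ C, ∀ᶠ k in l, (∀ z ∈ W.un c p.P, ‖(y k).x.Φ z‖ ≤ C ∧
    ‖(y k).x.m.Fg (J.G c (y k).s).F (y k).x.W z‖ ^ 2 ≤ C) ∧ ∀ i ∈ EdP c p.P,
    ∀ ha : Act J.m c i.1 (some i.2) (J.Θ (y k).s), ∀ z ∈ (J.K c i.1 _ _ ha).ψ.target,
      Dgr80.en (J.G c (y k).s).F (y k).x (J.K c i.1 _ _ ha).τ z ≤ C := by
  have hJ := H.ok
  have hO := isClopen_un (W := W) H.pok.pc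
  choose! C hC using fun i hi => bq_end H hy h0 st (i := i) hi
  choose A hA using fun i : Ed c => cbs_Dτ (D := (J.xs i.1).D)
  obtain ⟨u, ζ, hu, -⟩ := st.lim
  have hK := (endIn_J (θ := fun _ : ℝ => y₀.s) hJ (hJ.memBr H.mem h0.ov) (hJ.memO H.mem h0.ov)
    contDiff_const hO hO Subset.rfl).cov.inter_right hO.1
  obtain ⟨C1, h1⟩ := bdd_cpt (Mcg32.bub_job hJ hO.2 hu st.s ⟨Eqv71.ad0 h0.adm, hJ.memO H.mem h0.ov⟩
    (hy.mono fun _ S => ⟨Eqv71.ad0 S.adm, hJ.memO H.mem S.ov⟩)).nF_cv hK fun _ k => ⟨k.2, id⟩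
  obtain ⟨C2, h2⟩ := bdd_cpt (hu.Φ.bil (innerSL ℝ) hu.Φ) hK inter_subset_right
  have h3 := ev_compact (p := fun k x => Iso0 (W.Z c).I (y k).x.m y₀.x.m {x} (u k)) hK fun x hx =>
    End14.ulim_iso hu (hy.mono fun _ S => S.adm.ok) h0.adm.ok hx.2
  obtain ⟨C3, h4⟩ := (finite_range fun i : Ed c => max (max (C i) (∑ _s : Option κ × Option κ, C i))
    (max 0 ((∑ _a : Option κ, (∑ _k : Option κ, A i 0 * √(C i)) ^ 2) / 4 +
      (∑ _k : Option κ, A i 0 * √(C i)) ^ 2))).bddAbove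
  replace h4 := fun i => max_le_iff.1 (h4 ⟨i, rfl⟩)
  refine ⟨max C3 (max C1 √C2), ?_⟩
  filter_upwards [hy, h1, h2, h3, eventually_all.2 fun i => eventually_imp_distrib_left.2 (hC i)]
    with k S h1 h2 h3 hC
  refine ⟨fun z hz => ?_, fun i hi ha z hz => le_max_of_le_left ?_⟩
  · by_cases e : z ∈ ⋃ i, (jEnd (W.un c p.P) (W.un c p.P) (fun _ : ℝ => y₀.s)
        (hJ.memBr H.mem h0.ov) (hJ.memO H.mem h0.ov) i).U 5
    · obtain ⟨i, e1, e2⟩ := mem_iUnion.1 e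
      have s := hJ.end_eq (ac H h0 i) (ac H S i)
      have := hC i (by_contra fun k => Sw88.Aex.end_off hJ H.pok.pc k _ e1 hz) (ac H S i) z
        (s.tgt ▸ e1) (by rw [s.tm e1]; rw [wEnd_sg] at e2; exact le_trans (by norm_num) e2.le)
      have a := max_le_iff.1 (h4 i).1
      exact ⟨le_max_of_le_left (this.Φ.trans a.1), le_max_of_le_left (this.Fg.trans a.2)⟩
    · refine ⟨le_max_of_le_right (le_max_of_le_right (le_sqrt_of_sq_le ?_)),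
        le_max_of_le_right (le_max_of_le_left (h1 z ⟨e, hz⟩))⟩
      rw [← norm_Φ ((h3 z ⟨e, hz⟩).iso z rfl) ((admOn_univ.2 S.adm).pΦ (mem_univ z))
        h0.adm.ok.Jsq h0.adm.ok.Jsk (ζ k), ← real_inner_self_eq_norm_sq]
      exact h2 z ⟨e, hz⟩
  · have a := max_le_iff.1 (h4 i).2
    by_cases e : z ∈ (J.K c i.1 _ _ ha).dp (1 / 2)
    · refine ((hC i hi ha z hz ?_).en fun a => CB_zero.1 ((hA i _ a).2 0) z).trans a.2
      have : _ ∈ Dp _ _ _ := e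
      rw [(hJ.nk _ _ _ _ ha).lo, (hJ.nk _ _ _ _ ha).hi] at this
      revert this
      cases i.2 <;> simp [Dp, pm, le_neg]
    · obtain ⟨t, ht⟩ := (J.K c i.1 _ _ ha).τ_const e
      have : ∀ a, (J.G c (y k).s).F.D a (J.K c i.1 _ _ ha).τ z = 0 := fun a => by
        rw [Pre.D_def, Sob92.dv_congr (v := fun _ => t) ht, Mp86.dv_const]
      refine le_of_eq_of_le ?_ a.1
      simp [Dgr80.en, Dgr80.xA, Dgr80.xP, Dgr80.nt, this, ← Pi.zero_def]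

end Crest.Agent.X212.Tla99
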